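import Mathlib.MeasureTheory.Measure.Decomposition.RadonNikodym
import Mathlib.MeasureTheory.Measure.Prod

/-!
# P272 / FAMM: the push-forward density of a measurable family of discs (abstract part)

`F (x, z)` is a family of maps, `ρ (x, z) ≥ 0` a weight of finite total mass; if for almost every
`z` the map `x ↦ F (x, z)` pulls null sets back to null sets, then `F_*(ρ dvol dλ)` has a density.
-/

open MeasureTheory Set
open scoped ENNReal

noncomputable section

namespace Vale.Agent.P272.FAMM

variable {X Z : Type*} [MeasurableSpace X] [MeasurableSpace Z]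

/-- **density of the push-forward** -/
theorem exists_density {vol : Measure X} [SigmaFinite vol] {lam : Measure Z} [SFinite lam]
    {F : X × Z → X} {ρ : X × Z → ℝ≥0∞}
    (hF : AEMeasurable F (vol.prod lam)) (hρ : AEMeasurable ρ (vol.prod lam))
    (hfin : ∫⁻ p, ρ p ∂(vol.prod lam) ≠ ∞)
    (hnull : ∀ᵐ z ∂lam, ∀ A, MeasurableSet A → vol A = 0 → vol {x | F (x, z) ∈ A} = 0) :
    ∃ k : X → ℝ≥0∞, Measurable k ∧ ∫⁻ x, k x ∂vol = ∫⁻ p, ρ p ∂(vol.prod lam) ∧
      ∀ h : X → ℝ≥0∞, Measurable h →
        ∫⁻ p, ρ p * h (F p) ∂(vol.prod lam) = ∫⁻ x, k x * h x ∂vol := by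
  set μ : Measure (X × Z) := (vol.prod lam).withDensity ρ with hμ
  have hμac : μ ≪ vol.prod lam := withDensity_absolutelyContinuous _ _
  have hFμ : AEMeasurable F μ := hF.mono_ac hμac
  set m : Measure X := μ.map F with hm
  have hfμ : IsFiniteMeasure μ := isFiniteMeasure_withDensity hfin
  have hfm : IsFiniteMeasure m := Measure.isFiniteMeasure_map μ F
  have hac : m ≪ vol := by
    refine Measure.AbsolutelyContinuous.mk fun A hA hA0 => ?_
    rw [hm, Measure.map_apply_of_aemeasurable hFμ hA]
    refine hμac ?_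
    set F' := hF.mk F with hF'
    have hF'm : Measurable F' := hF.measurable_mk
    have hsw : MeasurePreserving (Prod.swap : Z × X → X × Z) (lam.prod vol) (vol.prod lam) :=
      Measure.measurePreserving_swap
    have hE : ∀ᵐ p ∂(vol.prod lam), F p = F' p := hF.ae_eq_mk
    have hE' : ∀ᵐ q ∂(lam.prod vol), F q.swap = F' q.swap :=
      hsw.quasiMeasurePreserving.ae hE
    have hE2 : ∀ᵐ z ∂lam, ∀ᵐ x ∂vol, F (x, z) = F' (x, z) := Measure.ae_ae_of_ae_prod hE'
    have hms : MeasurableSet (F' ⁻¹' A) := hF'm hA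
    have h2 : (lam.prod vol) (Prod.swap ⁻¹' (F' ⁻¹' A)) = 0 := by
      refine Measure.measure_prod_null_of_ae_null (measurable_swap hms) ?_
      filter_upwards [hnull, hE2] with z hz hz2
      have h3 : vol {x | F' (x, z) ∈ A} = vol {x | F (x, z) ∈ A} := by
        refine measure_congr ?_
        filter_upwards [hz2] with x hx
        show (F' (x, z) ∈ A) = (F (x, z) ∈ A)
        rw [hx]
      exact h3.trans (hz A hA hA0)
    have h4 : (vol.prod lam) (F ⁻¹' A) = (vol.prod lam) (F' ⁻¹' A) := by
      refine measure_congr ?_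
      filter_upwards [hE] with p hp
      show (F p ∈ A) = (F' p ∈ A)
      rw [hp]
    rw [h4, ← hsw.measure_preimage hms.nullMeasurableSet]
    exact h2
  refine ⟨m.rnDeriv vol, Measure.measurable_rnDeriv _ _, ?_, fun h hh => ?_⟩
  · have h1 : ∫⁻ x, m.rnDeriv vol x ∂vol = m univ := by
      rw [← setLIntegral_univ, Measure.setLIntegral_rnDeriv hac]
    rw [h1, hm, Measure.map_apply_of_aemeasurable hFμ MeasurableSet.univ, preimage_univ, hμ,
      withDensity_apply _ MeasurableSet.univ, setLIntegral_univ]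
  · have h1 : ∫⁻ x, h x ∂m = ∫⁻ x, m.rnDeriv vol x * h x ∂vol := by
      conv_lhs => rw [← Measure.withDensity_rnDeriv_eq m vol hac]
      rw [lintegral_withDensity_eq_lintegral_mul _ (Measure.measurable_rnDeriv _ _) hh]
      rfl
    rw [← h1, hm, lintegral_map' hh.aemeasurable hFμ, hμ,
      lintegral_withDensity_eq_lintegral_mul₀ (g := fun p => h (F p)) hρ
        (hh.comp_aemeasurable hF)]
    rfl

end Vale.Agent.P272.FAMM
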